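import Vale.Agent.P139Z.Loc.Chk

/-! The kernel computations. -/

namespace Vale.Agent.P139Z.Loc

theorem num0 : grid (chk0 1 ⟨-2500000000000, -334780000000, 50000000⟩) (-2500000000000)
    (-459830000000) 20850000000 29490000000 (2 + 1) (5 + 1) = true := by decide +kernel

theorem num1 : grid (chk0 (-1) ⟨-1500000000000, -334780000000, 50000000⟩) (-1625000000000)
    (-459830000000) 41700000000 58980000000 (2 + 1) (2 + 1) = true := by decide +kernel

theorem num2a : grid (chk1 ⟨-2000000000000, -334780000000, 50000000⟩) (-2125000000000)
    (-459830000000) 13900000000 19660000000 (2 + 1) (8 + 1) = true := by decide +kernel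

theorem num2b : grid (chk1 ⟨-2000000000000, -334780000000, 50000000⟩) (-2041600000000)
    (-459830000000) 13900000000 19660000000 (2 + 1) (8 + 1) = true := by decide +kernel

theorem num2c : grid (chk1 ⟨-2000000000000, -334780000000, 50000000⟩) (-1958200000000)
    (-459830000000) 13900000000 19660000000 (2 + 1) (8 + 1) = true := by decide +kernel

end Vale.Agent.P139Z.Loc
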