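import Vale.Agent.P139Z.NumP.Ball

/-! Generic complex ball arithmetic with integer fixed-point numbers. -/

open Complex
open scoped ComplexConjugate

namespace Vale.Agent.P139Z.Loc

open NumP

/-- A ball with scaled integer centre and radius. -/
structure Bl where
  x : ℤ
  y : ℤ
  r : ℤ

/-- Membership in a ball. -/
def Bl.Mem (B : Bl) (z : ℂ) : Prop := ‖z - sc B.x B.y‖ ≤ sr B.r

theorem sr_add (a b : ℤ) : sr (a + b) = sr a + sr b := by simp [sr, add_div]

theorem sr_sub (a b : ℤ) : sr (a - b) = sr a - sr b := by simp [sr, sub_div]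

theorem sr_le {a b : ℤ} (h : a ≤ b) : sr a ≤ sr b :=
  div_le_div_of_nonneg_right (by exact_mod_cast h) S_pos.le

theorem sr_lt {a b : ℤ} (h : a < b) : sr a < sr b :=
  div_lt_div_of_pos_right (by exact_mod_cast h) S_pos

theorem sr_zero : sr 0 = 0 := by simp [sr]

theorem sr_nonneg {a : ℤ} (h : 0 ≤ a) : 0 ≤ sr a := by rw [← sr_zero]; exact sr_le h

theorem sr_mul (a b : ℤ) : sr a * sr b = sr (a * b) / (S : ℝ) := by
  have := S_pos
  simp only [sr]; push_cast; field_simp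

theorem sc_add (a b c d : ℤ) : sc (a + c) (b + d) = sc a b + sc c d := by
  apply Complex.ext <;> simp [sc, sr_add]

theorem sc_sub (a b c d : ℤ) : sc (a - c) (b - d) = sc a b - sc c d := by
  apply Complex.ext <;> simp [sc, sr_sub]

theorem sc_real (a : ℤ) : sc a 0 = (sr a : ℂ) := by
  apply Complex.ext <;> simp [sc, sr_zero]

theorem ediv_le (n : ℤ) {q : ℤ} (hq : 0 < q) : ((n / q : ℤ) : ℝ) ≤ (n : ℝ) / q := by
  have hq' : (0 : ℝ) < q := by exact_mod_cast hq
  rw [le_div_iff₀ hq']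
  exact_mod_cast Int.ediv_mul_le n hq.ne'

theorem le_ediv (n : ℤ) {q : ℤ} (hq : 0 < q) : (n : ℝ) / q ≤ ((n / q : ℤ) : ℝ) + 1 := by
  have hq' : (0 : ℝ) < q := by exact_mod_cast hq
  rw [div_le_iff₀ hq']
  exact_mod_cast (Int.lt_ediv_add_one_mul_self n hq).le

theorem S_pos' : (0 : ℤ) < S := by norm_num [S]

theorem sr_div_le (n : ℤ) : sr (n / S) ≤ sr n / (S : ℝ) :=
  (div_le_div_of_nonneg_right (ediv_le n S_pos') S_pos.le)

theorem le_sr_div (n : ℤ) : sr n / (S : ℝ) ≤ sr (n / S) + sr 1 := by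
  have h := div_le_div_of_nonneg_right (le_ediv n S_pos') S_pos.le
  simp only [sr]
  rw [add_div] at h
  simpa using h

/-- Upper bound for the norm. -/
def ub (x y : ℤ) : ℤ :=
  if x * x + y * y ≤ (isq (x * x + y * y) + 2) * (isq (x * x + y * y) + 2)
    then isq (x * x + y * y) + 2 else |x| + |y|

/-- Lower bound for the norm. -/
def lb (x y : ℤ) : ℤ :=
  if (isq (x * x + y * y) - 2) * (isq (x * x + y * y) - 2) ≤ x * x + y * y
    then isq (x * x + y * y) - 2 else 0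

theorem sq_sc (x y : ℤ) : (sc x y).re ^ 2 + (sc x y).im ^ 2 = sr (x * x + y * y) / (S : ℝ) := by
  simp only [sc, pow_two, sr_mul, sr_add, add_div]

theorem norm_le_ub (x y : ℤ) : ‖sc x y‖ ≤ sr (ub x y) := by
  unfold ub
  split_ifs with h
  · refine norm_le_of_sq (sr_nonneg (by unfold isq; omega)) ?_
    rw [sq_sc, pow_two, sr_mul]
    exact div_le_div_of_nonneg_right (sr_le h) S_pos.le
  · refine (norm_le_abs_re_add_abs_im _).trans (le_of_eq ?_)
    simp only [sc, sr, abs_div, abs_of_pos S_pos]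
    push_cast
    ring

theorem lb_le_norm (x y : ℤ) : sr (lb x y) ≤ ‖sc x y‖ := by
  unfold lb
  split_ifs with h
  · refine le_norm_of_sq ?_
    rw [sq_sc, pow_two, sr_mul]
    exact div_le_div_of_nonneg_right (sr_le h) S_pos.le
  · rw [sr_zero]; exact norm_nonneg _

/-- Sum of balls. -/
def Bl.add (A B : Bl) : Bl := ⟨A.x + B.x, A.y + B.y, A.r + B.r⟩

/-- Difference of balls. -/
def Bl.sub (A B : Bl) : Bl := ⟨A.x - B.x, A.y - B.y, A.r + B.r⟩

/-- Product of balls. -/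
def Bl.mul (A B : Bl) : Bl :=
  ⟨(A.x * B.x - A.y * B.y) / S, (A.x * B.y + A.y * B.x) / S,
    (ub A.x A.y * B.r + ub B.x B.y * A.r + A.r * B.r) / S + 3⟩

/-- A real point. -/
def pt (a : ℤ) : Bl := ⟨a, 0, 0⟩

theorem pt_mem (a : ℤ) : (pt a).Mem (sr a : ℝ) := by
  simp [Bl.Mem, pt, sc_real, sr_zero]

theorem Bl.Mem.add {A B : Bl} {z w : ℂ} (hz : A.Mem z) (hw : B.Mem w) : (A.add B).Mem (z + w) := by
  unfold Bl.Mem Bl.add at *
  simp only [sc_add, sr_add]
  have : z + w - (sc A.x A.y + sc B.x B.y) = (z - sc A.x A.y) + (w - sc B.x B.y) := by ring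
  rw [this]
  exact (norm_add_le _ _).trans (add_le_add hz hw)

theorem Bl.Mem.sub {A B : Bl} {z w : ℂ} (hz : A.Mem z) (hw : B.Mem w) : (A.sub B).Mem (z - w) := by
  unfold Bl.Mem Bl.sub at *
  simp only [sc_sub, sr_add]
  have : z - w - (sc A.x A.y - sc B.x B.y) = (z - sc A.x A.y) - (w - sc B.x B.y) := by ring
  rw [this]
  exact (norm_sub_le _ _).trans (add_le_add hz hw)

theorem abs_round (n : ℤ) : |sr n / (S : ℝ) - sr (n / S)| ≤ sr 1 := by
  have h1 := sr_div_le n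
  have h2 := le_sr_div n
  rw [abs_le]
  constructor <;> linarith [sr_nonneg (show (0 : ℤ) ≤ 1 by norm_num)]

theorem Bl.Mem.mul {A B : Bl} {z w : ℂ} (hz : A.Mem z) (hw : B.Mem w) : (A.mul B).Mem (z * w) := by
  unfold Bl.Mem Bl.mul at *
  simp only
  have hA : 0 ≤ sr A.r := (norm_nonneg _).trans hz
  have hB : 0 ≤ sr B.r := (norm_nonneg _).trans hw
  have e0 : ‖sc A.x A.y * sc B.x B.y
      - sc ((A.x * B.x - A.y * B.y) / S) ((A.x * B.y + A.y * B.x) / S)‖ ≤ sr 1 + sr 1 := by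
    refine (norm_le_abs_re_add_abs_im _).trans (add_le_add ?_ ?_)
    · have := abs_round (A.x * B.x - A.y * B.y)
      simpa only [sc, sub_re, mul_re, sr_mul, sr_sub, sub_div] using this
    · have := abs_round (A.x * B.y + A.y * B.x)
      simpa only [sc, sub_im, mul_im, sr_mul, sr_add, add_div] using this
  have e1 : z * w - sc ((A.x * B.x - A.y * B.y) / S) ((A.x * B.y + A.y * B.x) / S)
      = (sc A.x A.y * (w - sc B.x B.y) + sc B.x B.y * (z - sc A.x A.y)
        + (z - sc A.x A.y) * (w - sc B.x B.y)) + (sc A.x A.y * sc B.x B.y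
      - sc ((A.x * B.x - A.y * B.y) / S) ((A.x * B.y + A.y * B.x) / S)) := by ring
  have n1 : ‖sc A.x A.y * (w - sc B.x B.y)‖ ≤ sr (ub A.x A.y) * sr B.r := by
    rw [norm_mul]
    exact mul_le_mul (norm_le_ub _ _) hw (norm_nonneg _) ((norm_nonneg _).trans (norm_le_ub _ _))
  have n2 : ‖sc B.x B.y * (z - sc A.x A.y)‖ ≤ sr (ub B.x B.y) * sr A.r := by
    rw [norm_mul]
    exact mul_le_mul (norm_le_ub _ _) hz (norm_nonneg _) ((norm_nonneg _).trans (norm_le_ub _ _))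
  have n3 : ‖(z - sc A.x A.y) * (w - sc B.x B.y)‖ ≤ sr A.r * sr B.r := by
    rw [norm_mul]
    exact mul_le_mul hz hw (norm_nonneg _) hA
  have e2 := le_sr_div (ub A.x A.y * B.r + ub B.x B.y * A.r + A.r * B.r)
  rw [sr_add, sr_add, add_div, add_div, ← sr_mul, ← sr_mul, ← sr_mul] at e2
  have e3 : sr 3 = sr 1 + sr 1 + sr 1 := by rw [← sr_add, ← sr_add]; norm_num
  rw [e1, sr_add, e3]
  refine (norm_add_le _ _).trans ?_
  have := norm_add₃_le (a := sc A.x A.y * (w - sc B.x B.y)) (b := sc B.x B.y * (z - sc A.x A.y))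
    (c := (z - sc A.x A.y) * (w - sc B.x B.y))
  linarith

/-- The ball stays away from zero. -/
def Bl.ok (D : Bl) : Bool := decide (D.r < lb D.x D.y)

/-- Radius of a quotient with a given centre. -/
def divr (M D : Bl) : ℤ := (ub M.x M.y + M.r) * S / (lb D.x D.y - D.r) + 1

/-- Quotient of balls with a given centre. -/
def divc (N D : Bl) (cx cy : ℤ) : Bl := ⟨cx, cy, divr (N.sub (Bl.mul ⟨cx, cy, 0⟩ D)) D⟩

/-- Quotient of balls. -/
def Bl.div (N D : Bl) : Bl :=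
  divc N D ((N.x * D.x + N.y * D.y) * S / (D.x * D.x + D.y * D.y))
    ((N.y * D.x - N.x * D.y) * S / (D.x * D.x + D.y * D.y))

theorem Bl.Mem.norm_le {A : Bl} {z : ℂ} (hz : A.Mem z) : ‖z‖ ≤ sr (ub A.x A.y + A.r) := by
  have h := norm_add_le (sc A.x A.y) (z - sc A.x A.y)
  rw [add_sub_cancel] at h
  rw [sr_add]
  exact h.trans (add_le_add (norm_le_ub _ _) hz)

theorem Bl.Mem.le_norm {A : Bl} {z : ℂ} (hz : A.Mem z) : sr (lb A.x A.y - A.r) ≤ ‖z‖ := by
  have h := norm_sub_le z (z - sc A.x A.y)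
  rw [sub_sub_cancel] at h
  have h2 := lb_le_norm A.x A.y
  unfold Bl.Mem at hz
  rw [sr_sub]
  linarith

theorem Bl.Mem.ne {D : Bl} {w : ℂ} (hw : D.Mem w) (hok : D.ok = true) : w ≠ 0 := by
  have h : D.r < lb D.x D.y := of_decide_eq_true hok
  have h1 := hw.le_norm
  have h2 : 0 < sr (lb D.x D.y - D.r) := by rw [← sr_zero]; exact sr_lt (by omega)
  exact norm_pos_iff.1 (by linarith)

theorem divc_mem {N D : Bl} {z w : ℂ} (hz : N.Mem z) (hw : D.Mem w) (hok : D.ok = true)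
    (cx cy : ℤ) : (divc N D cx cy).Mem (z / w) := by
  have hne := hw.ne hok
  have h : D.r < lb D.x D.y := of_decide_eq_true hok
  have hc : Bl.Mem ⟨cx, cy, 0⟩ (sc cx cy) := by simp [Bl.Mem, sr_zero]
  have hM := (hz.sub (hc.mul hw)).norm_le
  have hD := hw.le_norm
  unfold Bl.Mem divc divr
  simp only
  generalize N.sub (Bl.mul ⟨cx, cy, 0⟩ D) = M at hM ⊢
  have hq : 0 < lb D.x D.y - D.r := by omega
  generalize lb D.x D.y - D.r = q at hq hD ⊢
  generalize ub M.x M.y + M.r = u at hM ⊢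
  have hq' : 0 < sr q := by rw [← sr_zero]; exact sr_lt hq
  have e : z / w - sc cx cy = (z - sc cx cy * w) / w := by field_simp
  rw [e, norm_div]
  refine (div_le_div₀ ((norm_nonneg _).trans hM) hM hq' hD).trans ?_
  have h3 := le_ediv (u * S) hq
  have hS := S_pos
  have hq2 : (0 : ℝ) < q := by exact_mod_cast hq
  simp only [sr]
  push_cast at h3 ⊢
  rw [le_div_iff₀ hS]
  refine le_trans (le_of_eq ?_) h3
  field_simp

theorem Bl.Mem.div {N D : Bl} {z w : ℂ} (hz : N.Mem z) (hw : D.Mem w) (hok : D.ok = true) :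
    (N.div D).Mem (z / w) := divc_mem hz hw hok _ _

theorem Bl.Mem.re_pos {A : Bl} {z : ℂ} (hz : A.Mem z) {σ : ℤ} (hσ : σ = 1 ∨ σ = -1)
    (h : A.r < σ * A.x) : 0 < (σ : ℝ) * z.re := by
  have h1 := (Complex.abs_re_le_norm (z - sc A.x A.y)).trans hz
  simp only [sub_re, sc] at h1
  rw [abs_le] at h1
  have h2 := sr_lt h
  rcases hσ with rfl | rfl
  · rw [one_mul] at h2; push_cast; linarith
  · have : sr (-1 * A.x) = -sr A.x := by simp [sr, neg_div]
    rw [this] at h2; push_cast; linarith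

theorem exists_ratio {p y c : ℂ} {r : ℝ} (h : ‖p - c * y‖ ≤ r * ‖y‖) (hr : 0 ≤ r) :
    ∃ κ : ℂ, ‖κ - c‖ ≤ r ∧ p = κ * y := by
  by_cases hy : y = 0
  · refine ⟨c, by simpa using hr, ?_⟩
    rw [hy] at h ⊢
    simpa using h
  · refine ⟨p / y, ?_, by field_simp⟩
    have e : p / y - c = (p - c * y) / y := by field_simp
    rw [e, norm_div, div_le_iff₀ (norm_pos_iff.2 hy)]
    exact h

theorem cover {t : ℝ} {x₀ h : ℤ} (m : ℕ) (h0 : sr x₀ ≤ t) (h1 : t ≤ sr (x₀ + 2 * (m + 1) * h)) :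
    ∃ i : ℕ, i < m + 1 ∧ |t - sr (x₀ + (2 * i + 1) * h)| ≤ sr h := by
  induction m with
  | zero =>
    refine ⟨0, by omega, ?_⟩
    have e1 : sr (x₀ + 2 * ((0 : ℕ) + 1) * h) = sr x₀ + 2 * sr h := by simp [sr]; ring
    have e2 : sr (x₀ + (2 * (0 : ℕ) + 1) * h) = sr x₀ + sr h := by simp [sr]; ring
    rw [e1] at h1
    rw [e2, abs_le]
    constructor <;> linarith
  | succ m ih =>
    rcases le_total t (sr (x₀ + 2 * (m + 1) * h)) with h2 | h2
    · obtain ⟨i, hi, hh⟩ := ih h2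
      exact ⟨i, by omega, hh⟩
    · refine ⟨m + 1, by omega, ?_⟩
      have e1 : sr (x₀ + 2 * ((m + 1 : ℕ) + 1) * h) = sr (x₀ + 2 * (m + 1) * h) + 2 * sr h := by
        simp [sr]; ring
      have e2 : sr (x₀ + (2 * (m + 1 : ℕ) + 1) * h) = sr (x₀ + 2 * (m + 1) * h) + sr h := by
        simp [sr]; ring
      rw [e1] at h1
      rw [e2, abs_le]
      constructor <;> linarith

end Vale.Agent.P139Z.Loc
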