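import Vale.Agent.P139Z.Loc.Run

/-! The checks on single cells and on grids of cells. -/

open Complex
open scoped ComplexConjugate

namespace Vale.Agent.P139Z.Loc

open NumP Alg

/-- A check on all cells of a grid. -/
def grid (f : Bl → Bool) (x₀ y₀ h ρ : ℤ) (mx my : ℕ) : Bool :=
  (List.range mx).all fun i => (List.range my).all fun j =>
    f ⟨x₀ + (2 * (i : ℤ) + 1) * h, y₀ + (2 * (j : ℤ) + 1) * h, ρ⟩

theorem grid_sound {f : Bl → Bool} {x₀ y₀ h ρ : ℤ} {mx my : ℕ}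
    (hg : grid f x₀ y₀ h ρ (mx + 1) (my + 1) = true) (hρ : 0 ≤ ρ) (hh : 2 * (h * h) ≤ ρ * ρ)
    {z : ℂ} (x0 : sr x₀ ≤ z.re) (x1 : z.re ≤ sr (x₀ + 2 * (mx + 1) * h)) (y0 : sr y₀ ≤ z.im)
    (y1 : z.im ≤ sr (y₀ + 2 * (my + 1) * h)) : ∃ a : Bl, a.Mem z ∧ f a = true := by
  obtain ⟨i, hi, ei⟩ := cover mx x0 x1
  obtain ⟨j, hj, ej⟩ := cover my y0 y1
  refine ⟨⟨x₀ + (2 * (i : ℤ) + 1) * h, y₀ + (2 * (j : ℤ) + 1) * h, ρ⟩, ?_, ?_⟩
  · refine norm_le_of_sq (sr_nonneg hρ) ?_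
    simp only [sub_re, sub_im, sc]
    have h1 := sq_le_sq' (abs_le.1 ei).1 (abs_le.1 ei).2
    have h2 := sq_le_sq' (abs_le.1 ej).1 (abs_le.1 ej).2
    have h3 := div_le_div_of_nonneg_right (sr_le hh) S_pos.le
    rw [two_mul, sr_add, add_div, ← sr_mul, ← sr_mul] at h3
    nlinarith
  · simp only [grid, List.all_eq_true, List.mem_range] at hg
    exact hg i hi j hj

/-- The check for the modes with `l = 0`. -/
def chk0 (σ : ℤ) (a₀ a : Bl) : Bool :=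
  ((cell a a₀ 6250000000000 0 10).map fun s => decide (s.2.2.r < σ * s.2.2.x)).getD false

theorem chk0_sound {A₀ A : ℂ} {Z : ℝ} {Pu Yu Pk Yk D : ℕ → ℂ}
    (hW : WLev A₀ A 6 Z Pu Yu Pk Yk D) (hZ : InZ Z) {a a₀ : Bl} (ha : a.Mem (aa A 6 0))
    (ha₀ : a₀.Mem (aa A₀ 6 0)) (h0 : 0 ≤ A.re) (h1 : A.re ≤ 1.2) (h2 : |A.im| ≤ 1)
    (g0 : 0 ≤ A₀.re) (g1 : A₀.re ≤ 1.2) (g2 : |A₀.im| ≤ 1) {σ : ℤ} (hσ : σ = 1 ∨ σ = -1)
    (hc : chk0 σ a₀ a = true) :
    ∃ δ τ : ℂ, 0 < (σ : ℝ) * δ.re ∧ D 0 = δ * Yk 0 * Yu 0 ∧ Pk 0 = τ * Yk 0 := by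
  have hb : bb 6 = 5 / 2 := by norm_num [bb]
  unfold chk0 at hc
  cases hs : cell a a₀ 6250000000000 0 10 with
  | none => rw [hs] at hc; exact absurd hc (by simp)
  | some s =>
    rw [hs] at hc
    obtain ⟨k1, -, δ, hδ, e⟩ := cell_sound hW hZ le_rfl (by norm_num)
      (by rw [hb]; simp only [sr, S]; norm_num) ha ha₀ (by rw [hb]; linarith)
      (by rw [hb]; linarith) h2 (by rw [hb]; linarith) (by rw [hb]; linarith) g2 rfl hs
    obtain ⟨κ, -, eκ⟩ := k1.ex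
    refine ⟨δ, κ - bb 6, hδ.re_pos hσ (of_decide_eq_true hc), e, ?_⟩
    rw [sub_mul, ← eκ, pp]; ring

/-- The last step for the mode with `l = 1`. -/
def last1 (k d a a₀ : Bl) : Bool :=
  let q := (k.add ⟨0, Zc, Zr⟩).sub (pt 3000000000000)
  let μ := (a.sub (pt 3000000000000)).div q
  let w := a.add (pt 3000000000000)
  let e := (((d.mul μ).sub (pt 1000000000000)).add
    (((a₀.sub (pt 3000000000000)).mul (μ.sub (pt 1000000000000))).div w)).div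
      (detB a₀ 9000000000000)
  q.ok && w.ok && (detB a₀ 9000000000000).ok && decide (e.r < 1 * e.x)

/-- The check for the mode with `l = 1`. -/
def chk1 (a₀ a : Bl) : Bool :=
  ((cell a a₀ 9000000000000 1 9).map fun s => last1 s.1 s.2.2 a a₀).getD false

theorem chk1_sound {A₀ A : ℂ} {Z : ℝ} {Pu Yu Pk Yk D : ℕ → ℂ}
    (hW : WLev A₀ A 7 Z Pu Yu Pk Yk D) (hZ : InZ Z) {a a₀ : Bl} (ha : a.Mem (aa A 7 0))
    (ha₀ : a₀.Mem (aa A₀ 7 0)) (h0 : 1 / 2 ≤ A.re) (h1 : A.re ≤ 1.2) (h2 : |A.im| ≤ 1)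
    (g0 : 1 / 2 ≤ A₀.re) (g1 : A₀.re ≤ 1.2) (g2 : |A₀.im| ≤ 1) (hY : Yu 0 = 0)
    (hc : chk1 a₀ a = true) :
    ∃ δ η : ℂ, 0 < δ.re ∧ D 0 = δ * Pk 0 * Pu 0 ∧ Yk 0 = η * Pk 0 := by
  have hb : bb 7 = 3 := by norm_num [bb]
  have hb2 : bb 7 ^ 2 = sr 9000000000000 := by rw [hb]; simp only [sr, S]; norm_num
  unfold chk1 at hc
  cases hs : cell a a₀ 9000000000000 1 9 with
  | none => rw [hs] at hc; exact absurd hc (by simp)
  | some s =>
    rw [hs] at hc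
    obtain ⟨k1, -, δ, hδ, e⟩ := cell_sound hW hZ (by norm_num) le_rfl hb2 ha ha₀
      (by rw [hb]; linarith) (by rw [hb]; linarith) h2 (by rw [hb]; linarith)
      (by rw [hb]; linarith) g2 rfl hs
    obtain ⟨κ, hκ, eκ⟩ := k1.ex
    have hc' : last1 s.1 s.2.2 a a₀ = true := hc
    simp only [last1, Bool.and_eq_true, decide_eq_true_eq] at hc'
    obtain ⟨⟨⟨c1, c2⟩, c3⟩, c4⟩ := hc'
    have m3 : (pt 3000000000000).Mem 3 := by
      have := pt_mem 3000000000000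
      rwa [show sr 3000000000000 = 3 by simp only [sr, S]; norm_num, ofReal_ofNat] at this
    have m1 : (pt 1000000000000).Mem 1 := by
      have := pt_mem 1000000000000
      rwa [show sr 1000000000000 = 1 by simp only [sr, S]; norm_num, ofReal_one] at this
    have mZ : Bl.Mem ⟨0, Zc, Zr⟩ (I * Z) := by
      refine le_trans (le_of_eq ?_) (inZ_ball hZ)
      have : I * Z - sc 0 Zc = I * ((Z - sr Zc : ℝ) : ℂ) := by
        apply Complex.ext <;> simp [sc, sr_zero]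
      rw [this, norm_mul, norm_I, one_mul, norm_real, Real.norm_eq_abs]
    have mq := (hκ.add mZ).sub m3
    have mμ := (ha.sub m3).div mq c1
    have mw := ha.add m3
    have mdet := detB_mem hb2 ha₀
    have me := (((hδ.mul mμ).sub m1).add (((ha₀.sub m3).mul (mμ.sub m1)).div mw c2)).div mdet c3
    have nq := mq.ne c1
    have nw := mw.ne c2
    have nd := mdet.ne c3
    have hpos := me.re_pos (Or.inl rfl) c4
    have r := hW.recD 0
    rw [det_eq] at r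
    have y1 := hW.levK.recY 0
    have p1 := hW.levK.recP 0
    have y2 := hW.levU.recY 0
    have p2 := hW.levU.recP 0
    have hA : aa A 7 0 = A - 3 := by simp [aa, hb]
    have hA₀ : aa A₀ 7 0 = A₀ - 3 := by simp [aa, hb]
    have eκ' : Pk (0 + 1) + 3 * Yk (0 + 1) = κ * Yk (0 + 1) := by
      rw [← eκ, pp, hb]; simp
    rw [hY] at y2 p2
    obtain ⟨μ, hμ⟩ : ∃ μ, μ = (aa A 7 0 - 3) / (κ + I * Z - 3) := ⟨_, rfl⟩
    rw [← hμ] at hpos
    have e1 : Yk (0 + 1) = μ * Pk 0 := by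
      rw [hμ, div_mul_eq_mul_div, eq_div_iff nq, hA]
      push_cast at y1 p1
      linear_combination p1 - eκ' + I * Z * y1
    have e2 : Yk 0 = (μ - 1) / (aa A 7 0 + 3) * Pk 0 := by
      rw [div_mul_eq_mul_div, eq_div_iff nw, hA]
      push_cast at y1
      linear_combination e1 - y1
    refine ⟨_, _, by simpa using hpos, ?_, e2⟩
    rw [div_mul_eq_mul_div, div_mul_eq_mul_div, eq_div_iff nd, mul_div_assoc]
    have e3 : D (0 + 1) = δ * Yk (0 + 1) * Yu (0 + 1) := e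
    rw [e3, e1, y2, p2] at r
    push_cast at r
    rw [hA₀] at r ⊢
    linear_combination -r + (A₀ - 6) * Pu 0 * e2

end Vale.Agent.P139Z.Loc
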