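import Vale.Agent.P139Z.Loc.Bl

/-! Backward recursion for the ratios and for the normalised Wronskian. -/

open Complex
open scoped ComplexConjugate

namespace Vale.Agent.P139Z.Loc

open NumP Alg

/-- Centre of the interval for `Z`. -/
def Zc : ℤ := 2705100000000

/-- Radius of the interval for `Z`. -/
def Zr : ℤ := 300000000

theorem inZ_ball {Z : ℝ} (hZ : InZ Z) : |Z - sr Zc| ≤ sr Zr := by
  obtain ⟨h1, h2⟩ := hZ
  rw [abs_le]
  simp only [sr, Zc, Zr, S]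
  constructor <;> norm_num <;> linarith

/-- The ratio at the level `n` lies in the ball `k`. -/
def KI (B : ℕ) (P Y : ℕ → ℂ) (n : ℕ) (k : Bl) : Prop :=
  ‖pp B P Y n - sc k.x k.y * Y n‖ ≤ sr k.r * ‖Y n‖ ∧ 0 ≤ k.r

theorem KI.ex {B : ℕ} {P Y : ℕ → ℂ} {n : ℕ} {k : Bl} (h : KI B P Y n k) :
    ∃ κ : ℂ, k.Mem κ ∧ pp B P Y n = κ * Y n := exists_ratio h.1 (sr_nonneg h.2)

/-- The parameter ball at the level `n`. -/
def lev (a : Bl) (n : ℕ) : Bl := ⟨a.x + n * S, a.y, a.r⟩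

theorem lev_mem {a : Bl} {A : ℂ} {B : ℕ} (h : a.Mem (aa A B 0)) (n : ℕ) :
    (lev a n).Mem (aa A B n) := by
  have : aa A B n - sc (a.x + n * S) a.y = aa A B 0 - sc a.x a.y := by
    have hS := S_pos
    apply Complex.ext
    · simp only [sub_re, aa_re, sc, sr]
      push_cast
      field_simp
      ring
    · simp only [sub_im, aa_im, sc]
  unfold Bl.Mem lev
  rw [this]
  exact h

/-- One backward step for the ratio. -/
def kstep (k a : Bl) (b2 : ℤ) : Option Bl :=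
  (step k.x k.y k.r a.x a.y a.r Zc Zr b2).bind fun s => some ⟨s.1, s.2.1, s.2.2⟩

theorem kstep_sound {A : ℂ} {B : ℕ} {Z : ℝ} {P Y : ℕ → ℂ} (hL : Lev A B Z P Y) (hZ : InZ Z)
    {b2 : ℤ} (hb : bb B ^ 2 = sr b2) {n : ℕ} {k a k' : Bl} (ha : a.Mem (aa A B n))
    (hc : kstep k a b2 = some k') (h : KI B P Y (n + 1) k) : KI B P Y n k' := by
  unfold kstep at hc
  obtain ⟨s, hs, e⟩ := Option.bind_eq_some_iff.1 hc
  have hp := rec_p hL n
  rw [← ofReal_pow, hb] at hp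
  obtain rfl := Option.some.inj e
  exact step_sound (cx := s.1) (cy := s.2.1) (r := s.2.2) hs (rec_y hL n) hp h.1 h.2
    (inZ_ball hZ) ha

/-- Backward steps for the ratio from the level `lo + n` to the level `lo`. -/
def kdown (a : Bl) (b2 : ℤ) (lo : ℕ) : ℕ → Bl → Option Bl
  | 0, k => some k
  | n + 1, k => (kstep k (lev a (lo + n)) b2).bind fun k' => kdown a b2 lo n k'

theorem kdown_sound {A : ℂ} {B : ℕ} {Z : ℝ} {P Y : ℕ → ℂ} (hL : Lev A B Z P Y) (hZ : InZ Z)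
    {b2 : ℤ} (hb : bb B ^ 2 = sr b2) {a : Bl} (ha : a.Mem (aa A B 0)) (lo n : ℕ) {k k' : Bl}
    (hc : kdown a b2 lo n k = some k') (h : KI B P Y (lo + n) k) : KI B P Y lo k' := by
  induction n generalizing k with
  | zero =>
    obtain rfl := Option.some.inj hc
    exact h
  | succ n ih =>
    rw [kdown] at hc
    obtain ⟨s, hs, e⟩ := Option.bind_eq_some_iff.1 hc
    exact ih e (kstep_sound hL hZ hb (lev_mem ha _) hs h)

/-- The determinant of one step. -/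
def detB (a₀ : Bl) (b2 : ℤ) : Bl := (a₀.mul a₀).sub (pt b2)

/-- One backward step for the normalised Wronskian. -/
def dstep (d k u a a₀ : Bl) (b2 : ℤ) : Bl :=
  ((((u.add a₀).mul ((d.mul (k.add a)).sub k)).add (a₀.mul u)).add (pt b2)).div (detB a₀ b2)

/-- The invariant at the level `n`. -/
def Inv (B : ℕ) (Pu Yu Pk Yk D : ℕ → ℂ) (n : ℕ) (s : Bl × Bl × Bl) : Prop :=
  KI B Pk Yk n s.1 ∧ KI B Pu Yu n s.2.1 ∧ ∃ δ : ℂ, s.2.2.Mem δ ∧ D n = δ * Yk n * Yu n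

theorem det_eq (A₀ : ℂ) (B n : ℕ) :
    (A₀ + n) * (A₀ + n + 1 - B) = aa A₀ B n * aa A₀ B n - (bb B : ℂ) ^ 2 := by
  simp only [aa, bb_coe]; ring

theorem detB_mem {A₀ : ℂ} {B n : ℕ} {b2 : ℤ} (hb : bb B ^ 2 = sr b2) {a₀ : Bl}
    (h : a₀.Mem (aa A₀ B n)) : (detB a₀ b2).Mem (aa A₀ B n * aa A₀ B n - (bb B : ℂ) ^ 2) := by
  rw [← ofReal_pow, hb]
  exact (h.mul h).sub (pt_mem b2)

theorem dstep_sound {A₀ A : ℂ} {B : ℕ} {Z : ℝ} {Pu Yu Pk Yk D : ℕ → ℂ}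
    (hW : WLev A₀ A B Z Pu Yu Pk Yk D) {b2 : ℤ} (hb : bb B ^ 2 = sr b2) {n : ℕ}
    {d k u a a₀ : Bl} (ha : a.Mem (aa A B n)) (ha₀ : a₀.Mem (aa A₀ B n)) (hk : KI B Pk Yk n k)
    (hu : KI B Pu Yu n u) {δ : ℂ} (hδ : d.Mem δ) (e : D (n + 1) = δ * Yk (n + 1) * Yu (n + 1))
    (hok : (detB a₀ b2).ok = true) :
    ∃ δ' : ℂ, (dstep d k u a a₀ b2).Mem δ' ∧ D n = δ' * Yk n * Yu n := by
  obtain ⟨κ, hκ, eκ⟩ := hk.ex
  obtain ⟨μ, hμ, eμ⟩ := hu.ex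
  have hdet := detB_mem hb ha₀
  have hne := hdet.ne hok
  have hb' : (pt b2).Mem ((bb B : ℂ) ^ 2) := by rw [← ofReal_pow, hb]; exact pt_mem b2
  refine ⟨_, ((((hμ.add ha₀).mul ((hδ.mul (hκ.add ha)).sub hκ)).add (ha₀.mul hμ)).add hb').div
    hdet hok, ?_⟩
  have r := hW.recD n
  have y1 := rec_y hW.levK n
  have y2 := rec_y hW.levU n
  have p2 := rec_p hW.levU n
  rw [det_eq] at r
  rw [eκ] at y1
  rw [eμ] at y2 p2
  have q1 : Pk n = κ * Yk n - bb B * Yk n := by rw [← eκ, pp]; ring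
  have q2 : Pu (n + 1) = aa A₀ B n * (μ * Yu n) + (bb B : ℂ) ^ 2 * Yu n - I * Z * Yu (n + 1)
      - bb B * Yu (n + 1) := by rw [← p2, pp]; ring
  rw [e, q1, q2, y1, y2] at r
  rw [div_mul_eq_mul_div, div_mul_eq_mul_div, eq_div_iff hne]
  linear_combination -r

/-- Backward steps for the three balls from the level `lo + n` to the level `lo`. -/
def ddown (a a₀ : Bl) (b2 : ℤ) (lo : ℕ) : ℕ → Bl × Bl × Bl → Option (Bl × Bl × Bl)
  | 0, s => some s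
  | n + 1, s =>
    (kstep s.1 (lev a (lo + n)) b2).bind fun k => (kstep s.2.1 (lev a₀ (lo + n)) b2).bind fun u =>
      if (detB (lev a₀ (lo + n)) b2).ok then
        ddown a a₀ b2 lo n (k, u, dstep s.2.2 k u (lev a (lo + n)) (lev a₀ (lo + n)) b2)
      else none

theorem ddown_sound {A₀ A : ℂ} {B : ℕ} {Z : ℝ} {Pu Yu Pk Yk D : ℕ → ℂ}
    (hW : WLev A₀ A B Z Pu Yu Pk Yk D) (hZ : InZ Z) {b2 : ℤ} (hb : bb B ^ 2 = sr b2) {a a₀ : Bl}
    (ha : a.Mem (aa A B 0)) (ha₀ : a₀.Mem (aa A₀ B 0)) (lo n : ℕ) {s s' : Bl × Bl × Bl}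
    (hc : ddown a a₀ b2 lo n s = some s') (h : Inv B Pu Yu Pk Yk D (lo + n) s) :
    Inv B Pu Yu Pk Yk D lo s' := by
  induction n generalizing s with
  | zero =>
    obtain rfl := Option.some.inj hc
    exact h
  | succ n ih =>
    rw [ddown] at hc
    obtain ⟨k, hk, hc⟩ := Option.bind_eq_some_iff.1 hc
    obtain ⟨u, hu, hc⟩ := Option.bind_eq_some_iff.1 hc
    split_ifs at hc with hok
    obtain ⟨h1, h2, δ, hδ, e⟩ := h
    have k1 := kstep_sound hW.levK hZ hb (lev_mem ha _) hk h1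
    have k2 := kstep_sound hW.levU hZ hb (lev_mem ha₀ _) hu h2
    exact ih hc ⟨k1, k2, dstep_sound hW hb (lev_mem ha _) (lev_mem ha₀ _) k1 k2 hδ e hok⟩

theorem flux_le {B : ℕ} {Z : ℝ} (hZ : InZ Z) {P Y : ℕ → ℂ} {n : ℕ} {k : Bl} (h : KI B P Y n k) :
    flux Z (P n) (Y n) ≤ sr (k.y + k.r + 1353000000000) * ‖Y n‖ ^ 2 := by
  obtain ⟨κ, hκ, e⟩ := h.ex
  have h1 := (Complex.abs_im_le_norm (κ - sc k.x k.y)).trans hκ
  simp only [sub_im, sc] at h1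
  rw [abs_le] at h1
  have h2 : (conj (Y n) * pp B P Y n).im = κ.im * ‖Y n‖ ^ 2 := by
    rw [e, Complex.sq_norm, Complex.normSq_apply]
    simp only [mul_im, mul_re, conj_re, conj_im]
    ring
  have h3 : sr 1353000000000 = 1.353 := by simp only [sr, S]; norm_num
  unfold flux
  rw [← J_eq B, h2, ← add_mul, sr_add, sr_add, h3]
  exact mul_le_mul_of_nonneg_right (by linarith [hZ.2]) (by positivity)

/-- The starting ball for the normalised Wronskian. -/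
theorem tail_inv {A₀ A : ℂ} {B : ℕ} {Z : ℝ} {Pu Yu Pk Yk D : ℕ → ℂ}
    (hW : WLev A₀ A B Z Pu Yu Pk Yk D) (hZ : InZ Z) (h₀ : 7 ≤ A₀.re + (10 : ℕ) - (B : ℝ) / 2)
    (h₁ : 7 ≤ A.re + (10 : ℕ) - (B : ℝ) / 2) {k u : Bl} (hk : KI B Pk Yk 10 k)
    (hu : KI B Pu Yu 10 u) (ck : k.y + k.r + 1353000000000 ≤ 4200000000000)
    (cu : u.y + u.r + 1353000000000 ≤ 4200000000000) :
    Inv B Pu Yu Pk Yk D 10 (k, u, ⟨0, 0, 600000000000⟩) := by
  refine ⟨hk, hu, ?_⟩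
  have t := hW.tail 10 le_rfl
  have f1 := hW.levK.flux_nonneg 10 (by linarith)
  have e1 : sr 4200000000000 = 4.2 := by simp only [sr, S]; norm_num
  have e2 : sr 600000000000 = 0.6 := by simp only [sr, S]; norm_num
  have g1 : flux Z (Pk 10) (Yk 10) ≤ 4.2 * ‖Yk 10‖ ^ 2 :=
    (flux_le hZ hk).trans (mul_le_mul_of_nonneg_right (e1 ▸ sr_le ck) (by positivity))
  have g2 : flux Z (Pu 10) (Yu 10) ≤ 4.2 * ‖Yu 10‖ ^ 2 :=
    (flux_le hZ hu).trans (mul_le_mul_of_nonneg_right (e1 ▸ sr_le cu) (by positivity))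
  have g3 := mul_le_mul g2 g1 f1 (by positivity)
  have g4 : (7 : ℝ) * 7 ≤ (A₀.re + (10 : ℕ) - (B : ℝ) / 2) * (A.re + (10 : ℕ) - (B : ℝ) / 2) :=
    mul_le_mul h₀ h₁ (by norm_num) (by linarith)
  have g5 := mul_le_mul_of_nonneg_left g4 (sq_nonneg ‖D 10‖)
  have g6 : ‖D 10‖ ^ 2 ≤ (0.6 * ‖Yk 10 * Yu 10‖) ^ 2 := by
    rw [norm_mul]
    linarith
  have g7 : ‖D 10 - 0 * (Yk 10 * Yu 10)‖ ≤ 0.6 * ‖Yk 10 * Yu 10‖ := by
    rw [zero_mul, sub_zero]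
    exact (abs_le_of_sq_le_sq' g6 (by positivity)).2
  obtain ⟨δ, hδ, e⟩ := exists_ratio g7 (by norm_num)
  refine ⟨δ, ?_, by rw [e, mul_assoc]⟩
  unfold Bl.Mem
  simp only [sc_real, sr_zero, e2]
  simpa using hδ

/-- The starting ball for the ratio. -/
def k16 : Bl := ⟨-8000000000000, 0, 8000000000000⟩

theorem start16 {A : ℂ} {B : ℕ} {Z : ℝ} {P Y : ℕ → ℂ} (hL : Lev A B Z P Y) (hB : 6 ≤ B)
    (hB' : B ≤ 7) (hZ : InZ Z) (h0 : -(5 / 2) ≤ A.re - bb B) (h1 : A.re - bb B ≤ -1.3)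
    (h2 : |A.im| ≤ 1) : KI B P Y (10 + 6) k16 := by
  refine ⟨start hL hB (by linarith [hZ.1]) (10 + 6) (by push_cast; linarith) ?_, by simp [k16]⟩
  have e : sr 8000000000000 = 8 := by simp only [sr, S]; norm_num
  have hb0 : 0 ≤ bb B := by
    have : (6 : ℝ) ≤ B := by exact_mod_cast hB
    unfold bb; linarith
  have hb1 : bb B ≤ 3 := by
    have : (B : ℝ) ≤ 7 := by exact_mod_cast hB'
    unfold bb; linarith
  have h3 := abs_le.1 h2
  rw [e]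
  push_cast
  obtain ⟨ν, hν⟩ : ∃ ν, ν = A.re + 16 - bb B := ⟨_, rfl⟩
  have n0 : 13.5 ≤ ν := by linarith
  have n1 : ν ≤ 14.7 := by linarith
  rw [← hν]
  nlinarith

/-- The whole computation for one cell, down to the level `lo`, with `lo + n = 10`. -/
def cell (a a₀ : Bl) (b2 : ℤ) (lo n : ℕ) : Option (Bl × Bl × Bl) :=
  (kdown a b2 10 6 k16).bind fun k => (kdown a₀ b2 10 6 k16).bind fun u =>
    if k.y + k.r + 1353000000000 ≤ 4200000000000 ∧ u.y + u.r + 1353000000000 ≤ 4200000000000 then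
      ddown a a₀ b2 lo n (k, u, ⟨0, 0, 600000000000⟩)
    else none

theorem cell_sound {A₀ A : ℂ} {B : ℕ} {Z : ℝ} {Pu Yu Pk Yk D : ℕ → ℂ}
    (hW : WLev A₀ A B Z Pu Yu Pk Yk D) (hZ : InZ Z) (hB : 6 ≤ B) (hB' : B ≤ 7) {b2 : ℤ}
    (hb : bb B ^ 2 = sr b2) {a a₀ : Bl} (ha : a.Mem (aa A B 0)) (ha₀ : a₀.Mem (aa A₀ B 0))
    (h0 : -(5 / 2) ≤ A.re - bb B) (h1 : A.re - bb B ≤ -1.3) (h2 : |A.im| ≤ 1)
    (g0 : -(5 / 2) ≤ A₀.re - bb B) (g1 : A₀.re - bb B ≤ -1.3) (g2 : |A₀.im| ≤ 1) {lo n : ℕ}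
    (hn : lo + n = 10) {s : Bl × Bl × Bl} (hc : cell a a₀ b2 lo n = some s) :
    Inv B Pu Yu Pk Yk D lo s := by
  unfold cell at hc
  obtain ⟨k, hk, hc⟩ := Option.bind_eq_some_iff.1 hc
  obtain ⟨u, hu, hc⟩ := Option.bind_eq_some_iff.1 hc
  split_ifs at hc with hok
  have k1 := kdown_sound hW.levK hZ hb ha 10 6 hk (start16 hW.levK hB hB' hZ h0 h1 h2)
  have k2 := kdown_sound hW.levU hZ hb ha₀ 10 6 hu (start16 hW.levU hB hB' hZ g0 g1 g2)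
  refine ddown_sound hW hZ hb ha ha₀ lo n hc ?_
  rw [hn]
  refine tail_inv hW hZ ?_ ?_ k1 k2 hok.1 hok.2
  · unfold bb at g0; push_cast; linarith
  · unfold bb at h0; push_cast; linarith

end Vale.Agent.P139Z.Loc
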